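import Vale.Agent.P046.Limit.Main

/-! P046: the leave of random triangle removal: `F_n / n^{3/2}` tends to `1/(2 sqrt 2)`. -/

open Filter Topology

namespace Vale.Agent.Results.P046.LeaveLimit

open Vale.Agent.P046 Vale.Agent.P046.Limit

open Classical in
theorem result :
    (∀ ε : ℝ, 0 < ε → Tendsto (fun n : ℕ => leaveExp (fun m : ℕ =>
        if ε ≤ |(m : ℝ) / ((n : ℝ) * Real.sqrt (n : ℝ)) - 1 / (2 * Real.sqrt 2)|
        then (1 : ℝ) else 0) (complete n)) atTop (𝓝 0)) ∧
    Tendsto (fun n : ℕ => leave (complete n) / ((n : ℝ) * Real.sqrt (n : ℝ))) atTop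
      (𝓝 (1 / (2 * Real.sqrt 2))) :=
  limit

end Vale.Agent.Results.P046.LeaveLimit
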